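import Vale.Agent.P159.TM.H764.Lamb
import Vale.Agent.P159.TM.H764.Hyp

/-!
Row A2: tail of a nonnegative kernel on `Z_N x Z_N` from `Ĝ(0) - Ĝ(j e₁)`.
-/

namespace Vale.Agent.P159.TM.H738

open Finset Vale.Agent.P159.TM.H764

noncomputable section

variable {N : ℕ} [NeZero N]

/-- Dirichlet kernel. -/
lemma dirichlet (θ : ℝ) (J : ℕ) :
    2 * Real.sin (θ / 2) * ∑ j ∈ range J, Real.cos ((j + 1 : ℕ) * θ) =
      Real.sin (J * θ + θ / 2) - Real.sin (θ / 2) := by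
  induction J with
  | zero => simp
  | succ J ih =>
    rw [Finset.sum_range_succ, mul_add, ih]
    have e1 : ((J + 1 : ℕ) : ℝ) * θ + θ / 2 = ((J + 1 : ℕ) : ℝ) * θ + θ / 2 := rfl
    have e2 : (J : ℝ) * θ + θ / 2 = ((J + 1 : ℕ) : ℝ) * θ - θ / 2 := by push_cast; ring
    rw [e2, Real.sin_add, Real.sin_sub]
    ring

/-- The average of the cosines is at most `1/2` away from the origin. -/
lemma avg_cos {m s J : ℕ} (hs : 1 ≤ s) (hm : s ≤ m) (hN : 2 * m ≤ N) (hJ : N ≤ 2 * s * J) :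
    ∑ j ∈ range J, Real.cos ((j + 1 : ℕ) * (2 * Real.pi * m / N)) ≤ J / 2 := by
  have hN0 : (0 : ℝ) < N := by exact_mod_cast Nat.pos_of_ne_zero (NeZero.ne N)
  set θ : ℝ := 2 * Real.pi * m / N with hθ
  have hm1 : (1 : ℝ) ≤ m := by exact_mod_cast hs.trans hm
  have hx : θ / 2 = Real.pi * (m / N) := by rw [hθ]; ring
  have h1 : (m : ℝ) / N ≤ 1 / 2 := by
    rw [div_le_div_iff₀ hN0 (by norm_num)]
    have : ((2 * m : ℕ) : ℝ) ≤ N := by exact_mod_cast hN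
    push_cast at this
    linarith
  have h0 : (0 : ℝ) < (m : ℝ) / N := by positivity
  have hsin : 2 * ((m : ℝ) / N) ≤ Real.sin (θ / 2) := by
    have := Real.mul_le_sin (x := Real.pi * ((m : ℝ) / N)) (by positivity) (by nlinarith [Real.pi_pos])
    rw [hx]
    calc 2 * ((m : ℝ) / N) = 2 / Real.pi * (Real.pi * ((m : ℝ) / N)) := by
          field_simp
      _ ≤ _ := this
  have hpos : 0 < Real.sin (θ / 2) := lt_of_lt_of_le (by positivity) hsin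
  have hd := dirichlet θ J
  have h2 : Real.sin (J * θ + θ / 2) ≤ 1 := Real.sin_le_one _
  have h3 : 2 * Real.sin (θ / 2) * ∑ j ∈ range J, Real.cos ((j + 1 : ℕ) * θ) ≤ 1 := by
    rw [hd]; linarith
  have h4 : (1 : ℝ) ≤ 2 * Real.sin (θ / 2) * (J / 2) := by
    have h5 : (N : ℝ) ≤ 2 * m * J := by
      have : N ≤ 2 * m * J := hJ.trans (by gcongr)
      exact_mod_cast this
    have h6 : (1 : ℝ) ≤ 2 * ((m : ℝ) / N) * J := by
      rw [mul_div_assoc', div_mul_eq_mul_div, le_div_iff₀ hN0]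
      linarith
    have h7 : 2 * ((m : ℝ) / N) * J ≤ Real.sin (θ / 2) * J := by gcongr
    linarith
  have h8 : 2 * Real.sin (θ / 2) * ∑ j ∈ range J, Real.cos ((j + 1 : ℕ) * θ) ≤
      2 * Real.sin (θ / 2) * (J / 2) := h3.trans h4
  exact le_of_mul_le_mul_left h8 (by positivity)

/-- **Row A2**: tail bound from the one scale hypothesis on one axis. -/
theorem tail {ξ : ℝ} (G : ZMod N × ZMod N → ℝ) (hG : ∀ w, 0 ≤ G w) {y a : ℝ} (hy : 0 ≤ y)
    (ha : 0 ≤ a) (h : ∀ j : ZMod N, DD G j ≤ y * ξ ^ 2 + a * ξ ^ 4 * (2 * (1 - cN j)))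
    {s : ℕ} (hs : 1 ≤ s) :
    tl G s ≤ 2 * (y * ξ ^ 2) + 80 * a * (ξ ^ 4 / (s : ℝ) ^ 2) := by
  have hN0 : (0 : ℝ) < N := by exact_mod_cast Nat.pos_of_ne_zero (NeZero.ne N)
  have hs0 : (0 : ℝ) < s := by exact_mod_cast hs
  by_cases hsN : N < 2 * s
  · have : tl G s = 0 := by
      unfold tl
      refine Finset.sum_eq_zero fun w hw => ?_
      exfalso
      rw [Finset.mem_filter] at hw
      have := ZMod.natAbs_valMinAbs_le w.1
      omega
    rw [this]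
    positivity
  push Not at hsN
  set J : ℕ := (N + 2 * s - 1) / (2 * s) with hJdef
  have hJ1 : N ≤ 2 * s * J := by
    have h1 := Nat.div_add_mod (N + 2 * s - 1) (2 * s)
    have h2 := Nat.mod_lt (N + 2 * s - 1) (show 0 < 2 * s by omega)
    rw [← hJdef] at h1
    omega
  have hJ2 : 2 * s * J ≤ N + 2 * s - 1 := Nat.mul_div_le _ _
  have hJ0 : 1 ≤ J := by
    rcases Nat.eq_zero_or_pos J with h0 | h0
    · rw [h0] at hJ1; simp at hJ1; exact absurd hJ1 (NeZero.ne N)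
    · exact h0
  have hJr : (0 : ℝ) < J := by exact_mod_cast hJ0
  have hJN : (s : ℝ) * J ≤ N := by
    have : 2 * s * J ≤ 2 * N := by omega
    have h' : s * J ≤ N := by nlinarith
    exact_mod_cast h'
  -- average of the hypothesis
  have hA : ∑ j ∈ range J, DD G (((j + 1 : ℕ) : ℤ) : ZMod N) ≤
      J * (y * ξ ^ 2 + a * ξ ^ 4 * (40 / (s : ℝ) ^ 2)) := by
    have : ∀ j ∈ range J, DD G (((j + 1 : ℕ) : ℤ) : ZMod N) ≤
        y * ξ ^ 2 + a * ξ ^ 4 * (40 / (s : ℝ) ^ 2) := by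
      intro j hj
      refine (h _).trans ?_
      have hj' : ((j + 1 : ℕ) : ℝ) ≤ J := by exact_mod_cast Finset.mem_range.1 hj
      have h1 : 2 * (1 - cN ((((j + 1 : ℕ) : ℤ) : ZMod N))) ≤ 40 / (s : ℝ) ^ 2 := by
        rw [cN_int]
        have h2 := Real.one_sub_sq_div_two_le_cos (x := 2 * Real.pi * (((j + 1 : ℕ) : ℤ) : ℝ) / N)
        have h3 : (2 * Real.pi * (((j + 1 : ℕ) : ℤ) : ℝ) / N) ^ 2 ≤ 40 / (s : ℝ) ^ 2 := by
          have h4 : 2 * Real.pi * (((j + 1 : ℕ) : ℤ) : ℝ) / N ≤ 2 * Real.pi / s := by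
            rw [div_le_div_iff₀ hN0 hs0]
            have h5 : (((j + 1 : ℕ) : ℤ) : ℝ) ≤ J := by exact_mod_cast hj'
            have h6 : (((j + 1 : ℕ) : ℤ) : ℝ) * s ≤ N :=
              (mul_le_mul_of_nonneg_right h5 hs0.le).trans (by linarith)
            nlinarith [Real.pi_pos]
          have h7 : 0 ≤ 2 * Real.pi * (((j + 1 : ℕ) : ℤ) : ℝ) / N := by
            have : (0 : ℝ) ≤ (((j + 1 : ℕ) : ℤ) : ℝ) := by positivity
            positivity
          calc (2 * Real.pi * (((j + 1 : ℕ) : ℤ) : ℝ) / N) ^ 2 ≤ (2 * Real.pi / s) ^ 2 :=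
                pow_le_pow_left₀ h7 h4 2
            _ = 4 * Real.pi ^ 2 / (s : ℝ) ^ 2 := by rw [div_pow]; ring
            _ ≤ 40 / (s : ℝ) ^ 2 := by
                gcongr
                nlinarith [Real.pi_lt_d2, Real.pi_pos]
        linarith
      have : a * ξ ^ 4 * (2 * (1 - cN ((((j + 1 : ℕ) : ℤ) : ZMod N)))) ≤
          a * ξ ^ 4 * (40 / (s : ℝ) ^ 2) := by
        refine mul_le_mul_of_nonneg_left h1 ?_
        have : 0 ≤ ξ ^ 4 := by positivity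
        positivity
      linarith
    have := Finset.sum_le_sum this
    rw [Finset.sum_const, card_range, nsmul_eq_mul] at this
    exact this
  -- the tail
  have hB : (J : ℝ) / 2 * tl G s ≤ ∑ j ∈ range J, DD G (((j + 1 : ℕ) : ℤ) : ZMod N) := by
    have e1 : ∑ j ∈ range J, DD G (((j + 1 : ℕ) : ℤ) : ZMod N) =
        ∑ w, G w * (J - ∑ j ∈ range J,
          Real.cos ((j + 1 : ℕ) * (2 * Real.pi * (w.1.valMinAbs.natAbs : ℕ) / N))) := by
      simp_rw [DD_eq]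
      rw [Finset.sum_comm]
      refine Finset.sum_congr rfl fun w _ => ?_
      rw [← Finset.mul_sum, Finset.sum_sub_distrib, Finset.sum_const, card_range, nsmul_eq_mul,
        mul_one]
      congr 2
      refine Finset.sum_congr rfl fun j _ => ?_
      rw [cN_mul]
      have h1 : ((w.1.valMinAbs.natAbs : ℕ) : ℝ) = |(w.1.valMinAbs : ℝ)| := by
        rw [Nat.cast_natAbs, Int.cast_abs]
      rw [h1]
      have h2 : ((j + 1 : ℕ) : ℝ) * (2 * Real.pi * |(w.1.valMinAbs : ℝ)| / N) =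
          |2 * Real.pi * (((j + 1 : ℕ) : ℤ) : ℝ) / N * (w.1.valMinAbs : ℝ)| := by
        rw [abs_mul, abs_of_nonneg (a := 2 * Real.pi * (((j + 1 : ℕ) : ℤ) : ℝ) / N)]
        · push_cast; ring
        · have : (0 : ℝ) ≤ (((j + 1 : ℕ) : ℤ) : ℝ) := by positivity
          have := Real.pi_pos
          positivity
      rw [h2, Real.cos_abs]
    rw [e1]
    unfold tl
    rw [Finset.mul_sum, Finset.sum_filter]
    refine Finset.sum_le_sum fun w _ => ?_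
    split_ifs with hw
    · have h1 := avg_cos (N := N) (m := w.1.valMinAbs.natAbs) (s := s) (J := J) hs hw
        (by have := ZMod.natAbs_valMinAbs_le w.1; omega) hJ1
      have h2 : (J : ℝ) / 2 ≤ J - ∑ j ∈ range J,
          Real.cos ((j + 1 : ℕ) * (2 * Real.pi * (w.1.valMinAbs.natAbs : ℕ) / N)) := by linarith
      have := mul_le_mul_of_nonneg_left h2 (hG w)
      linarith
    · refine mul_nonneg (hG w) ?_
      have : ∑ j ∈ range J, Real.cos ((j + 1 : ℕ) * (2 * Real.pi * (w.1.valMinAbs.natAbs : ℕ) / N))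
          ≤ ∑ j ∈ range J, (1 : ℝ) := Finset.sum_le_sum fun j _ => Real.cos_le_one _
      rw [Finset.sum_const, card_range, nsmul_eq_mul, mul_one] at this
      linarith
  have hC : (J : ℝ) / 2 * tl G s ≤ J * (y * ξ ^ 2 + a * ξ ^ 4 * (40 / (s : ℝ) ^ 2)) := hB.trans hA
  have hD : tl G s ≤ 2 * (y * ξ ^ 2 + a * ξ ^ 4 * (40 / (s : ℝ) ^ 2)) := by
    have h9 : (J : ℝ) / 2 * tl G s ≤
        (J : ℝ) / 2 * (2 * (y * ξ ^ 2 + a * ξ ^ 4 * (40 / (s : ℝ) ^ 2))) := by linarith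
    exact le_of_mul_le_mul_left h9 (by positivity)
  refine hD.trans (le_of_eq ?_)
  ring

/-- The form used by `lamb`. -/
theorem tail' {ξ : ℕ} (G : ZMod N × ZMod N → ℝ) (hG : ∀ w, 0 ≤ G w) {y a : ℝ} (hy : 0 ≤ y)
    (ha : 0 ≤ a) (h : ∀ j : ZMod N, DD G j ≤ y * (ξ : ℝ) ^ 2 + a * (ξ : ℝ) ^ 4 * (2 * (1 - cN j))) :
    ∀ s : ℕ, 1 ≤ s → tl G s ≤ (2 + 80 * a) * (ξ : ℝ) ^ 2 * (y + (ξ : ℝ) ^ 2 / (s : ℝ) ^ 2) := by
  intro s hs
  have h1 := tail G hG hy ha h hs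
  have h2 : 0 ≤ (ξ : ℝ) ^ 2 * ((ξ : ℝ) ^ 2 / (s : ℝ) ^ 2) := by positivity
  have h3 : 0 ≤ 80 * a * ((ξ : ℝ) ^ 2 * y) := by positivity
  have h4 : (ξ : ℝ) ^ 4 / (s : ℝ) ^ 2 = (ξ : ℝ) ^ 2 * ((ξ : ℝ) ^ 2 / (s : ℝ) ^ 2) := by ring
  rw [h4] at h1
  nlinarith

/-- A2 from `QK` (the one scale hypothesis on plane waves). -/
theorem tail_QK {ξ : ℕ} (G : ZMod N × ZMod N → ℝ) (hG : ∀ w, 0 ≤ G w) {y a : ℝ} (hy : 0 ≤ y)
    (ha : 0 ≤ a) (h : QK (ξ : ℝ) G y a) (h0 : ∑ w, G w ≤ (ξ : ℝ) ^ 2) :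
    ∀ s : ℕ, 1 ≤ s → tl G s ≤ (2 + 80 * a) * (ξ : ℝ) ^ 2 * (y + (ξ : ℝ) ^ 2 / (s : ℝ) ^ 2) :=
  tail' G hG hy ha fun j => h.axis (by rw [Gh_zero]; exact h0) j

/-- Tail in the sup norm `nrm`. -/
theorem tail_nrm {ξ : ℕ} (G : ZMod N × ZMod N → ℝ) (hG : ∀ w, 0 ≤ G w)
    (hs : ∀ w, G (w.2, w.1) = G w) {A y : ℝ}
    (h : ∀ s : ℕ, 1 ≤ s → tl G s ≤ A * (ξ : ℝ) ^ 2 * (y + (ξ : ℝ) ^ 2 / (s : ℝ) ^ 2)) :
    ∀ s : ℕ, 1 ≤ s → ∑ w ∈ univ.filter (fun w : ZMod N × ZMod N => s ≤ nrm w), G w ≤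
      2 * (A * (ξ : ℝ) ^ 2 * (y + (ξ : ℝ) ^ 2 / (s : ℝ) ^ 2)) := by
  intro s h1
  have e : ∑ w ∈ univ.filter (fun w : ZMod N × ZMod N => s ≤ w.2.valMinAbs.natAbs), G w =
      tl G s := by
    unfold tl
    rw [Finset.sum_filter, Finset.sum_filter, ← Equiv.sum_comp (Equiv.prodComm _ _)]
    refine Finset.sum_congr rfl fun w _ => ?_
    simp only [Equiv.prodComm_apply, Prod.swap, hs w]
  have h2 : ∑ w ∈ univ.filter (fun w : ZMod N × ZMod N => s ≤ nrm w), G w ≤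
      tl G s + ∑ w ∈ univ.filter (fun w : ZMod N × ZMod N => s ≤ w.2.valMinAbs.natAbs), G w := by
    unfold tl
    rw [Finset.sum_filter, Finset.sum_filter, Finset.sum_filter, ← Finset.sum_add_distrib]
    refine Finset.sum_le_sum fun w _ => ?_
    have hw := hG w
    by_cases ha : s ≤ w.1.valMinAbs.natAbs <;> by_cases hb : s ≤ w.2.valMinAbs.natAbs <;>
      by_cases hc : s ≤ nrm w <;> simp only [ha, hb, hc, if_true, if_false] <;> try linarith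
    exfalso
    rw [nrm, le_max_iff] at hc
    tauto
  rw [e] at h2
  have := h s h1
  linarith

end

end Vale.Agent.P159.TM.H738
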